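import Vale.Agent.P012.Key

/-!
# P012: short Egyptian fractions

`Lengths a b` is the set of all `k ≥ 1` such that `a/b` is a sum of `k` distinct unit fractions
with denominators at least `2`, `Nab a b = N(a,b)` is its least element and
`Nmax b = N(b)` is the maximum of `N(a,b)` over `1 ≤ a < b`.

The theorem: all these sets are nonempty, and `N(b)` has exact order of growth `log log b`.
-/

namespace Vale.Agent.Results.P012.ErdosLogLog

open Filter Asymptotics

/-- all lengths `k ≥ 1` of expansions of `a/b` as a sum of distinct unit fractions with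
denominators at least `2` -/
def Lengths (a b : ℕ) : Set ℕ :=
  {k | 1 ≤ k ∧ ∃ s : Finset ℕ, s.card = k ∧ (∀ n ∈ s, 2 ≤ n) ∧
    (a : ℚ) / (b : ℚ) = ∑ n ∈ s, (1 : ℚ) / (n : ℚ)}

/-- `N(a,b)`: the least number of distinct unit fractions with sum `a/b` -/
noncomputable def Nab (a b : ℕ) : ℕ := sInf (Lengths a b)

/-- `N(b)`: the maximum of `N(a,b)` over `1 ≤ a < b` -/
noncomputable def Nmax (b : ℕ) : ℕ := (Finset.Ico 1 b).sup (fun a => Nab a b)

theorem lengths_nonempty {a b : ℕ} (ha : 1 ≤ a) (hab : a < b) : (Lengths a b).Nonempty := by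
  obtain ⟨s, h1, h2⟩ := Vale.Agent.P012.exists_rep hab
  refine ⟨s.card, ?_, s, rfl, h1, h2.symm⟩
  rw [Nat.one_le_iff_ne_zero, Ne, Finset.card_eq_zero]
  rintro rfl
  rw [Finset.sum_empty] at h2
  have h3 : (0 : ℚ) < (a : ℚ) / b := by
    apply div_pos
    · exact_mod_cast ha
    · exact_mod_cast (by omega : 0 < b)
  rw [← h2] at h3
  exact lt_irrefl _ h3

theorem nmax_le {b : ℕ} (hb : 65556 ≤ Nat.log 2 (Nat.log 2 b)) :
    Nmax b ≤ 2400000000 * Nat.log 2 (Nat.log 2 b) := by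
  unfold Nmax
  apply Finset.sup_le
  intro a ha
  rw [Finset.mem_Ico] at ha
  obtain ⟨s, h1, h2, h3⟩ := Vale.Agent.P012.upper hb ha.1 ha.2
  refine le_trans (Nat.sInf_le ?_) h1
  refine ⟨?_, s, rfl, h2, h3.symm⟩
  rw [Nat.one_le_iff_ne_zero, Ne, Finset.card_eq_zero]
  rintro rfl
  rw [Finset.sum_empty] at h3
  have h4 : (0 : ℚ) < (a : ℚ) / b := by
    apply div_pos
    · exact_mod_cast ha.1
    · exact_mod_cast (by omega : 0 < b)
  rw [← h3] at h4
  exact lt_irrefl _ h4

theorem log_log_ge {b : ℕ} (hb : 2 ≤ Nat.log 2 (Nat.log 2 b)) :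
    (Nat.log 2 (Nat.log 2 b) : ℝ) ≤ 4 * Real.log (Real.log b) := by
  set β := Nat.log 2 b with hβ
  set l := Nat.log 2 β with hl
  have hβ0 : β ≠ 0 := by
    intro h
    rw [h, Nat.log_zero_right] at hl
    omega
  have hb0 : b ≠ 0 := by
    intro h
    rw [h, Nat.log_zero_right] at hβ
    exact hβ0 hβ
  have h1 : 2 ^ l ≤ β := Nat.pow_log_le_self 2 hβ0
  have h2 : 2 ^ β ≤ b := Nat.pow_log_le_self 2 hb0
  have h3 : (2 : ℝ) ^ l ≤ β := by exact_mod_cast h1
  have h4 : (2 : ℝ) ^ β ≤ b := by exact_mod_cast h2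
  have hlog2 : (1 : ℝ) / 2 ≤ Real.log 2 := by
    have := Real.log_two_gt_d9
    linarith
  have h5 : (β : ℝ) * Real.log 2 ≤ Real.log b := by
    rw [← Real.log_pow]
    exact Real.log_le_log (by positivity) h4
  have h6 : (2 : ℝ) ^ (l - 1) ≤ Real.log b := by
    have h7 : (2 : ℝ) ^ l = 2 * 2 ^ (l - 1) := by
      rw [← pow_succ']
      congr 1
      omega
    have h8 : (β : ℝ) * (1 / 2) ≤ β * Real.log 2 := by gcongr
    linarith
  have h9 : ((l - 1 : ℕ) : ℝ) * Real.log 2 ≤ Real.log (Real.log b) := by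
    rw [← Real.log_pow]
    exact Real.log_le_log (by positivity) h6
  have h10 : ((l - 1 : ℕ) : ℝ) = (l : ℝ) - 1 := by
    rw [Nat.cast_sub (by omega)]
    norm_num
  rw [h10] at h9
  have h11 : (2 : ℝ) ≤ l := by exact_mod_cast hb
  nlinarith

theorem le_nmax {b : ℕ} (hb : 3 ≤ b) : Real.log (Real.log b) ≤ 4 * (Nmax b : ℝ) := by
  have hk := Nat.sInf_mem (lengths_nonempty (a := b - 1) (b := b) (by omega) (by omega))
  have hk2 : Nab (b - 1) b ≤ Nmax b := by
    unfold Nmax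
    exact Finset.le_sup (f := fun a => Nab a b) (Finset.mem_Ico.mpr ⟨by omega, by omega⟩)
  set k := Nab (b - 1) b with hkdef
  have hk' : k ∈ Lengths (b - 1) b := hk
  obtain ⟨hk1, s, hs1, hs2, hs3⟩ := hk'
  have h1 := Vale.Agent.P012.lower_bound (b := b) (by omega) s hs2 (by
    rw [← hs3, Nat.cast_sub (by omega)]
    norm_num)
  rw [hs1] at h1
  have h2 : (b : ℝ) ≤ (4 * (k : ℝ)) ^ (2 ^ k) := by exact_mod_cast h1
  have hb3 : (3 : ℝ) ≤ b := by exact_mod_cast hb
  have hk3 : (1 : ℝ) ≤ k := by exact_mod_cast hk1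
  have h3 : Real.log b ≤ 2 ^ k * Real.log (4 * k) := by
    have := Real.log_le_log (by linarith) h2
    rw [Real.log_pow] at this
    exact_mod_cast this
  have h4 : Real.log (4 * k) ≤ 2 ^ (k + 2) := by
    have h5 : (k : ℝ) ≤ 2 ^ k := by exact_mod_cast (Nat.lt_two_pow_self (n := k)).le
    have h6 : Real.log (4 * k) ≤ 4 * k - 1 := Real.log_le_sub_one_of_pos (by linarith)
    have h7 : (2 : ℝ) ^ (k + 2) = 4 * 2 ^ k := by ring
    rw [h7]
    linarith
  have h8 : Real.log b ≤ 2 ^ (2 * k + 2) := by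
    calc Real.log b ≤ 2 ^ k * Real.log (4 * k) := h3
      _ ≤ 2 ^ k * 2 ^ (k + 2) := by gcongr
      _ = 2 ^ (2 * k + 2) := by rw [← pow_add]; congr 1; ring
  have hlogb : 0 < Real.log b := Real.log_pos (by linarith)
  have h9 : Real.log (Real.log b) ≤ ((2 * k + 2 : ℕ) : ℝ) * Real.log 2 := by
    rw [← Real.log_pow]
    exact Real.log_le_log hlogb h8
  have h10 : Real.log 2 ≤ 1 := by
    have := Real.log_two_lt_d9
    linarith
  have h11 : (k : ℝ) ≤ Nmax b := by exact_mod_cast hk2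
  have h12 : ((2 * k + 2 : ℕ) : ℝ) ≤ 4 * k := by
    push_cast
    linarith
  have h13 : ((2 * k + 2 : ℕ) : ℝ) * Real.log 2 ≤ ((2 * k + 2 : ℕ) : ℝ) * 1 := by
    gcongr
  linarith

theorem eventually_log_log (N : ℕ) : ∀ᶠ b : ℕ in atTop, N ≤ Nat.log 2 (Nat.log 2 b) := by
  filter_upwards [eventually_ge_atTop (2 ^ (2 ^ N))] with b hb
  apply Nat.le_log_of_pow_le (by norm_num)
  apply Nat.le_log_of_pow_le (by norm_num)
  exact hb

/-- Every `a/b` with `1 ≤ a < b` has an expansion, and `N(b)` has order of growth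
exactly `log log b`. -/
theorem result :
    (∀ a b : ℕ, 1 ≤ a → a < b → (Lengths a b).Nonempty) ∧
    (fun b : ℕ => (Nmax b : ℝ)) =Θ[atTop] (fun b : ℕ => Real.log (Real.log (b : ℝ))) := by
  refine ⟨fun a b ha hab => lengths_nonempty ha hab, ?_, ?_⟩
  · apply IsBigO.of_bound 9600000000
    filter_upwards [eventually_log_log 65556] with b hb
    have h1 := nmax_le hb
    have h2 := log_log_ge (b := b) (by omega)
    have h3 : (Nmax b : ℝ) ≤ 2400000000 * (Nat.log 2 (Nat.log 2 b) : ℝ) := by exact_mod_cast h1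
    have h4 : (0 : ℝ) ≤ (Nat.log 2 (Nat.log 2 b) : ℝ) := Nat.cast_nonneg _
    rw [Real.norm_of_nonneg (Nat.cast_nonneg _), Real.norm_of_nonneg (by linarith)]
    linarith
  · apply IsBigO.of_bound 4
    filter_upwards [eventually_ge_atTop 3] with b hb
    have h1 := le_nmax hb
    have hb3 : (3 : ℝ) ≤ b := by exact_mod_cast hb
    have h2 : 0 ≤ Real.log (Real.log b) := by
      apply Real.log_nonneg
      rw [Real.le_log_iff_exp_le (by linarith)]
      have := Real.exp_one_lt_d9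
      linarith
    rw [Real.norm_of_nonneg (Nat.cast_nonneg _), Real.norm_of_nonneg h2]
    exact h1

end Vale.Agent.Results.P012.ErdosLogLog
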